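import Vale.Agent.P334.MathlibUsed
import Vale.Agent.P334.Alg.P1.Inst
import Vale.Agent.P334.H220.Final

/-!
Metric k-median with rational distances in binary. There are a randomized polynomial-time algorithm
with exactly the bound k whose cost is at most (2 - 10^(-28)) times the optimum, in expectation and
with probability at least 1 - 2^(-|J|), and a deterministic polynomial-time algorithm which opens
at most k + K (log |J| + 1) facilities and whose cost is at most (2 - 10^(-28)) times the value of
the natural linear program with k facilities.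
-/

namespace Vale.Agent.Results.P334.BelowTwoDeterministicLP

open Vale.Agent.P334.Final

theorem result :
    ∃ (A : Input → List ℕ) (T : Polynomial ℕ) (B : Inst → List ℕ) (K : ℕ),
      (∃ M : Turing.TM2ComputableInPolyTime Input.code (codeList Nat.bits) A,
        ∀ k, Finite (M.tm.Γ k)) ∧
      (∃ M : Turing.TM2ComputableInPolyTime Inst.code (codeList Nat.bits) B,
        ∀ k, Finite (M.tm.Γ k)) ∧
      ∀ I : Inst, I.Valid →
        (∀ r : Fin (T.eval I.code.length) → Bool, I.Feasible (A ⟨I, List.ofFn r⟩).toFinset) ∧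
        (∀ S, I.Feasible S →
          (∑ r : Fin (T.eval I.code.length) → Bool, I.cost (A ⟨I, List.ofFn r⟩).toFinset) /
            2 ^ (T.eval I.code.length) ≤ (2 - 1 / 10 ^ 28) * I.cost S) ∧
        (∀ S, I.Feasible S →
          Nat.card {r : Fin (T.eval I.code.length) → Bool //
            (2 - 1 / 10 ^ 28) * I.cost S < I.cost (A ⟨I, List.ofFn r⟩).toFinset} *
              2 ^ I.J.length ≤ 2 ^ (T.eval I.code.length)) ∧
        (B I).toFinset.Nonempty ∧ (B I).toFinset ⊆ I.F.toFinset ∧
        (B I).toFinset.card ≤ I.k + K * (Nat.log 2 I.J.length + 1) ∧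
        ∀ (x : ℕ → ℕ → ℝ) (y : ℕ → ℝ),
          (∀ i ∈ I.F, ∀ j ∈ I.J, 0 ≤ x i j ∧ x i j ≤ y i) →
          (∀ j ∈ I.J, ∑ i ∈ I.F.toFinset, x i j = 1) → ∑ i ∈ I.F.toFinset, y i ≤ I.k →
          (I.cost (B I).toFinset : ℝ) ≤ (2 - 1 / 10 ^ 28) *
            ∑ j ∈ I.J.toFinset, ∑ i ∈ I.F.toFinset, x i j * (I.dist i j : ℝ) :=
  Vale.Agent.P334.Alg.One.H220.final

end Vale.Agent.Results.P334.BelowTwoDeterministicLP
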