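import Vale.Agent.P334.MathlibUsed
import Vale.Agent.P334.Alg.P1.Inst
import Vale.Agent.P334.H100.Close

/-!
Metric k-median with rational distances in binary has a DETERMINISTIC polynomial-time approximation
algorithm with the factor 2 - 10^(-28): on every instance it returns a nonempty set of at most k
facilities whose cost is at most (2 - 10^(-28)) times the optimum. There are no random bits.
-/

namespace Vale.Agent.Results.P334.Deterministic

open Vale.Agent.P334.Final

theorem result :
    ∃ B : Inst → List ℕ,
      (∃ M : Turing.TM2ComputableInPolyTime Inst.code (codeList Nat.bits) B,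
        ∀ k, Finite (M.tm.Γ k)) ∧
      ∀ I : Inst, I.Valid → I.Feasible (B I).toFinset ∧
        ∀ S, I.Feasible S → I.cost (B I).toFinset ≤ (2 - 1 / 10 ^ 28) * I.cost S :=
  Vale.Agent.P334.Alg.One.H100.final_det

end Vale.Agent.Results.P334.Deterministic
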